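import Vale.Agent.P275AR.Cp
import Vale.Agent.P275RG.Prod
import Vale.Agent.P275KU.Fn
import Vale.Agent.P275MC.Pd

/-!
# P275, Betti side: flat bundles of varieties and the rules for their weights
-/

open scoped Manifold ContDiff Topology
open Set Function
open Vale.Agent.P272.K Vale.Agent.P281Z.Hg Vale.Agent.P275MC Vale.Agent.P275FM Vale.Agent.P275AR
open Vale.Agent.P281Z (HolM HolA Mf Emb)
open Vale.Agent.P275RG
open Vale.Agent.P275KU (SmC fn)

noncomputable section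

namespace Vale.Agent.P275B

/-- a complex manifold -/
structure Mn (d : ℕ) : Type 1 where
  X : Type
  [top : TopologicalSpace X]
  [t2 : T2Space X]
  [sc : SecondCountableTopology X]
  [ch : ChartedSpace (Cm d) X]
  [mf : IsManifold 𝓘(ℂ, Cm d) ω X]

attribute [instance] Mn.top Mn.t2 Mn.sc Mn.ch Mn.mf

/-- the cohomology with compact supports -/
abbrev Mn.H {d : ℕ} (T : Mn d) : Type := Hc d (univ : Set T.X)

/-- the product -/
def Mn.prod {d e : ℕ} (T : Mn d) (S : Mn e) : Mn (d + e) := { X := T.X × S.X }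

/-- a smooth variety -/
structure Vr (d : ℕ) : Type 1 extends Mn d where
  cp : Cp d X

/-- a finite open cover -/
structure Cv {b : ℕ} (B : Mn b) : Type 1 where
  ι : Type
  [fin : Fintype ι]
  V : ι → Set B.X
  opn : ∀ i, IsOpen (V i)
  cov : ∀ x, ∃ i, x ∈ V i

attribute [instance] Cv.fin

variable {b b' d d' e D D' E : ℕ} {B : Mn b} {B' : Mn b'}

/-- A flat bundle over `B` whose fibre is the variety `M` and whose transition maps are
algebraic and constant; `T` is the total space. -/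
structure Fl (c : Cv B) (M : Vr d) (D : ℕ) : Type 1 where
  T : Mn D
  dim : D = b + d
  q : T.X → B.X
  φ : c.ι → T.X → M.X
  ψ : c.ι → B.X × M.X → T.X
  tr : c.ι → c.ι → M.X → M.X
  hq : HolM D b q
  hφ : ∀ i x, q x ∈ c.V i → HolA D d (φ i) x
  hψ : ∀ i z, z.1 ∈ c.V i → HolA (b + d) D (ψ i) z
  qψ : ∀ i z, z.1 ∈ c.V i → q (ψ i z) = z.1
  φψ : ∀ i z, z.1 ∈ c.V i → φ i (ψ i z) = z.2
  ψφ : ∀ i x, q x ∈ c.V i → ψ i (q x, φ i x) = x
  alg : ∀ i j, (c.V i ∩ c.V j).Nonempty → Alg M.cp M.cp (tr i j)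
  φtr : ∀ i j x, q x ∈ c.V i → q x ∈ c.V j → φ i x = tr i j (φ j x)

variable {c : Cv B} {c' : Cv B'} {M : Vr d} {M' : Vr d'}

/-- A map of flat bundles over the map `β` of the bases and the map `r` of the covers: `f i` on
the fibres in the chart `i`, `t` on the total spaces. -/
structure Hm (β : B'.X → B.X) (r : c'.ι → c.ι) (F' : Fl c' M' D') (F : Fl c M D)
    (f : c'.ι → M'.X → M.X) (t : F'.T.X → F.T.X) : Prop where
  hβ : HolM b' b β
  sub : ∀ i, ∀ x ∈ c'.V i, β x ∈ c.V (r i)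
  alg : ∀ i, Alg M'.cp M.cp (f i)
  qt : ∀ x, F.q (t x) = β (F'.q x)
  φt : ∀ i x, F'.q x ∈ c'.V i → F.φ (r i) (t x) = f i (F'.φ i x)

/-- a map of flat bundles over the same base -/
abbrev Hm0 (F' : Fl c M' D') (F : Fl c M D) (f : c.ι → M'.X → M.X) (t : F'.T.X → F.T.X) : Prop :=
  Hm id id F' F f t

/-- `k` is read in the chart `i` as the map `k₀ i` on the fibre -/
def Fl.Inv (F : Fl c M D) {Y : Type} (k₀ : c.ι → M.X → Y) (k : F.T.X → Y) : Prop :=
  ∀ i x, F.q x ∈ c.V i → k x = k₀ i (F.φ i x)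

/-- exterior multiplication on the right -/
abbrev rwd {T : Mn D} (y : SF D T.X) : SF D T.X →ₗ[ℂ] SF D T.X := (wdL D T.X).flip y

/-- weights on the cohomology with compact supports of the total spaces -/
structure WF : Type 1 where
  w : ∀ {b d D : ℕ} {B : Mn b} {c : Cv B} {M : Vr d} (F : Fl c M D), ℕ → Module.End ℂ F.T.H
  gr : ∀ {b d D : ℕ} {B : Mn b} {c : Cv B} {M : Vr d} (F : Fl c M D), IsGr (w F)
  /-- the projectors to a cohomological degree -/
  deg : ∀ {b d D : ℕ} {B : Mn b} {c : Cv B} {M : Vr d} (F : Fl c M D) (k : ℤ),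
    Grd (w F) (w F) 0 (prH D univ k)
  /-- maps which are proper on the fibres, times a closed form of the base -/
  pull : ∀ {b b' d d' D D' : ℕ} {B : Mn b} {B' : Mn b'} {c : Cv B} {c' : Cv B'} {M : Vr d}
    {M' : Vr d'} {β r} {F' : Fl c' M' D'} {F : Fl c M D} {f t}, Hm β r F' F f t →
    (∀ i, IsProperMap (f i)) →
    ∀ (hβ : Smo b' b β) (ht : Smo D' D t) (hq : Smo D' b' F'.q) (y : SF b' B'.X),
      dd b' B'.X y = 0 → (∀ a ∈ Ac b univ, wd (pb hβ a) y ∈ Ac b' univ) →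
      ∀ h : Act univ univ (rwd (pb hq y) ∘ₗ pb ht), Grd (w F) (w F') 0 h.map
  /-- the same for a map to a variety -/
  const : ∀ {b d e D : ℕ} {B : Mn b} {c : Cv B} {M : Vr d} (F : Fl c M D) (X : Vr e) {f t},
    (∀ i, Alg M.cp X.cp (f i)) → (∀ i, IsProperMap (f i)) → F.Inv f t →
    ∀ (ht : Smo D e t) (hq : Smo D b F.q) (y : SF b B.X), dd b B.X y = 0 → y ∈ Ac b univ →
      ∀ h : Act univ univ (rwd (pb hq y) ∘ₗ pb ht), Grd (wt X.cp) (w F) 0 h.map
  /-- forms which come from a fixed compact Kaehler manifold -/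
  hyp : ∀ {b d D m : ℕ} {B : Mn b} {c : Cv B} {M : Vr d} (F : Fl c M D) (Y : Mf m) (hY : Y.Kah)
    {k₀ k}, (∀ i, Alg M.cp (Cp.self Y hY) (k₀ i)) → F.Inv k₀ k →
    ∀ (s : ℕ) (y : SF m Y.X), y ∈ Dg m Y.X s →
    del m Y.X y = 0 → dlb m Y.X y = 0 → ∀ (hk : Smo D m k) (h : Act univ univ (wd (pb hk y))),
      Grd (w F) (w F) s h.map
  /-- locally constant functions -/
  lc : ∀ {b d D : ℕ} {B : Mn b} {c : Cv B} {M : Vr d} (F : Fl c M D),
    (∀ i, IsPreconnected (c.V i)) → ∀ (p : F.T.X → ℂ), IsLocallyConstant p →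
    ∀ (hp : SmC D p) (h : Act univ univ (wd (fn hp))), Grd (w F) (w F) 0 h.map

/-- **FLAT** -/
def FLAT : Prop := Nonempty WF

/-- a cocycle of algebraic maps -/
structure Coc (c : Cv B) (M : Vr d) (tr : c.ι → c.ι → M.X → M.X) : Prop where
  alg : ∀ i j, (c.V i ∩ c.V j).Nonempty → Alg M.cp M.cp (tr i j)
  one : ∀ i, (c.V i).Nonempty → ∀ m, tr i i m = m
  mul : ∀ i j k, (c.V i ∩ c.V j ∩ c.V k).Nonempty → ∀ m, tr i j (tr j k m) = tr i k m

/-- **FLEX**: the total space of a cocycle exists -/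
def FLEX : Prop := ∀ (b d : ℕ) (B : Mn b) (c : Cv B) (M : Vr d) (tr : c.ι → c.ι → M.X → M.X),
  Coc c M tr → ∃ F : Fl c M (b + d), F.tr = tr

end Vale.Agent.P275B
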