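import Vale.Agent.P275RL.Pf
import Vale.Agent.P275MM.Maps
import Vale.Agent.P275MK.Fl

/-!
# P275, Betti side: the transitions of the Riemann-Hilbert data form a cocycle
-/

set_option linter.unusedSectionVars false

open Set Function Matrix
open Vale.Agent.P275GC (At)
open Vale.Agent.P275NA (Cy)
open Vale.Agent.P281Z.Hm (Mx)
open Vale.Agent.P275MO Vale.Agent.P275Z Vale.Agent.P275RL Vale.Agent.P275RG
open Vale.Agent.P275RH (cwd)

noncomputable section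

namespace Vale.Agent.P275B

variable {n g : ℕ} {d : ℤ} {t : Aut g n} {ρ ρ' ρ'' : Tup g n} {h R : Mx (Fin n)} {τ : Ty n}

/-- the image of a tuple -/
def ap (t : Aut g n) (ρ : Tup g n) : Tup g n := fun s =>
  ⟨t.χ s • wv ρ (t.φ (FreeGroup.of s)), by
    rw [det_smul, Fintype.card_fin, t.root, wv_det, one_mul]⟩

theorem im_ap (t : Aut g n) (ρ : Tup g n) : t.Im ρ (ap t ρ) := fun _ => rfl

theorem im_iff : t.Im ρ ρ' ↔ ρ' = ap t ρ :=
  ⟨fun e => funext fun s => Subtype.ext (e s), fun e => e ▸ im_ap t ρ⟩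

theorem cj_ap (t : Aut g n) (k : h.det ≠ 0) (e : Cj h ρ ρ') : Cj h (ap t ρ) (ap t ρ') := fun s => by
  simp only [ap, cj_wv e k, Matrix.mul_smul, Matrix.smul_mul]

theorem cont_ap (t : Aut g n) : Continuous (ap t) :=
  continuous_pi fun s => Continuous.subtype_mk
    (f := fun ρ : Tup g n => t.χ s • wv ρ (t.φ (FreeGroup.of s)))
    ((wv_cont (t.φ (FreeGroup.of s))).const_smul (t.χ s)) _

theorem wv_ap (t : Aut g n) (ρ : Tup g n) : wv (ap t ρ) (cwd g) = wv ρ (cwd g) := by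
  rcases n with _ | n
  · exact Subsingleton.elim _ _
  have h0 : ∀ s, t.χ s ≠ 0 := fun s e => by simpa [e] using t.root s
  let χ : FreeGroup (Fin g × Bool) →* ℂˣ := FreeGroup.lift fun s => Units.mk0 _ (h0 s)
  have h1 : ∀ a, wv (ap t ρ) a = (χ a : ℂ) • wv ρ (t.φ a) := fun a => by
    induction a using FreeGroup.induction_on with
    | C1 => simp [wv_one]
    | of s => simp [wv_of, χ, ap]
    | inv_of s i =>
      rw [wv_inv, i]
      refine inv_eq_left_inv ?_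
      rw [smul_mul_smul_comm, ← wv_mul, ← map_mul, ← Units.val_mul, ← map_mul, inv_mul_cancel]
      simp [wv_one]
    | mul a b i j => rw [wv_mul, i, j, map_mul, map_mul, wv_mul, smul_mul_smul_comm, Units.val_mul]
  have h2 : χ (cwd g) = 1 := by
    rw [cwd, map_list_prod, List.map_ofFn]
    refine List.prod_eq_one fun x hx => ?_
    obtain ⟨j, rfl⟩ := List.mem_ofFn.1 hx
    simp only [Function.comp_apply, map_commutatorElement]
    exact commutatorElement_eq_one_iff_mul_comm.2 (mul_comm _ _)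
  rw [h1, h2, t.fix, Units.val_one, one_smul]

theorem det_exp (R : Mx (Fin n)) : (NormedSpace.exp R).det ≠ 0 :=
  ((Matrix.isUnit_iff_isUnit_det _).1 (Matrix.isUnit_exp R)).ne_zero

/-- equal up to the one-parameter group of the residue -/
def Eqv (R : Mx (Fin n)) (ρ ρ' : Tup g n) : Prop := ∃ c : ℂ, Cj (NormedSpace.exp (c • R)) ρ ρ'

theorem Eqv.refl (R : Mx (Fin n)) (ρ : Tup g n) : Eqv R ρ ρ :=
  ⟨0, by rw [zero_smul, NormedSpace.exp_zero]; exact cj_one.2 rfl⟩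

theorem Eqv.symm (e : Eqv R ρ ρ') : Eqv R ρ' ρ :=
  let ⟨c, e⟩ := e
  ⟨-c, by rw [neg_smul, Matrix.exp_neg]; exact cj_symm e (det_exp _)⟩

theorem Eqv.trans (e : Eqv R ρ ρ') (e' : Eqv R ρ' ρ'') : Eqv R ρ ρ'' :=
  let ⟨c, e⟩ := e
  let ⟨c', e'⟩ := e'
  ⟨c + c', by
    rw [add_smul, Matrix.exp_add_of_commute _ _ (((Commute.refl R).smul_left c).smul_right c')]
    exact cj_trans e e'⟩

theorem Eqv.ap (t : Aut g n) (e : Eqv R ρ ρ') : Eqv R (ap t ρ) (ap t ρ') :=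
  let ⟨c, e⟩ := e
  ⟨c, cj_ap t (det_exp _) e⟩

theorem Eqv.zero (e : Eqv 0 ρ ρ') : ρ' = ρ :=
  let ⟨c, e⟩ := e
  cj_one.1 (by rwa [smul_zero, NormedSpace.exp_zero] at e)

/-- the image of a framed object -/
def bap {q : Submodule ℂ (Mx (Fin n))} (t : Aut g n) (p : BFr g d q) : BFr g d q :=
  ⟨(p.1.1, ap t p.1.2), p.2.1, p.2.2.1, (wv_ap t _).trans p.2.2.2⟩

theorem rl_equiv (τ : Ty n) : Equivalence (BFr.Rl (g := g) (d := d) τ) where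
  refl _ := ⟨1, one_mem _, by simp, by simp, cj_one.2 rfl⟩
  symm := fun ⟨h, m, k, e, c⟩ => ⟨h⁻¹, P275MB.inv_mem_alg m k, det_inv_ne k, by
    rw [e, inv_inv' k, ← Matrix.mul_assoc, ← Matrix.mul_assoc, mul_inv' k, Matrix.one_mul,
      Matrix.mul_assoc, mul_inv' k, Matrix.mul_one], cj_symm c k⟩
  trans := fun ⟨h, m, k, e, c⟩ ⟨h', m', k', e', c'⟩ => ⟨h * h', mul_mem m m',
    by rw [det_mul]; exact mul_ne_zero k k',
    by rw [e', e, Matrix.mul_inv_rev]; simp only [Matrix.mul_assoc], cj_trans c c'⟩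

theorem pt_iff {p p' : BFr g d τ.q} : p.pt τ = p'.pt τ ↔ BFr.Rl τ p p' :=
  Quot.eq.trans (rl_equiv τ).eqvGen_iff

theorem pt_onto (y : Bet g d τ) : ∃ p : BFr g d τ.q, p.pt τ = y := Quot.exists_rep y

/-- the action on the Betti moduli space -/
def map (τ : Ty n) (t : Aut g n) : Bet g d τ → Bet g d τ :=
  Quot.map (bap t) fun _ _ ⟨h, m, k, e, c⟩ => ⟨h, m, k, e, cj_ap t k c⟩

theorem map_pt (t : Aut g n) (p : BFr g d τ.q) : map τ t (p.pt τ) = (bap t p).pt τ := rfl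

theorem exp_mem {H : Subalgebra ℂ (Mx (Fin n))} (m : R ∈ H) : NormedSpace.exp R ∈ H :=
  NormedSpace.exp_mem (R := ℂ) (s := H) H.toSubmodule.closed_of_finiteDimensional m

theorem pt_eqv (hτ : ∀ R ∈ τ.q, R ∈ τ.H) {p p' : BFr g d τ.q} (e : p'.1.1 = p.1.1)
    (e' : Eqv p.1.1 p.1.2 p'.1.2) : p.pt τ = p'.pt τ :=
  let ⟨c, e'⟩ := e'
  pt_iff.2 ⟨_, exp_mem (τ.H.smul_mem (hτ _ p.2.1) c), det_exp _, by
    rw [e, Matrix.mul_assoc, ((Commute.refl p.1.1).smul_right c).exp_right.eq,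
      inv_mul_can (det_exp _)], e'⟩

variable {C : Type} [TopologicalSpace C] {A : At C} {l : Cy A ℂ} (D : RHD A l g n d)
  {i j k : Fin D.N} {z z' : Dat C A.N n} {x : C}

theorem rel_ib {φ} (e : D.Rel i z ρ) (e' : D.Rel i z' ρ') (f : P275MM.IB A z z' φ h) :
    ∃ c : ℂ, Cj (NormedSpace.exp (c • z'.R) * h) ρ' ρ :=
  let ⟨r, a, b, f⟩ := f
  D.iso i z z' ρ ρ' r a b φ h e e' f

theorem rel_uniq (e : D.Rel i z ρ) (e' : D.Rel i z ρ') : Eqv z.R ρ ρ' := by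
  simpa only [Matrix.mul_one, Eqv] using rel_ib D e' e (P275MM.IB.refl z)

theorem rel_ex (e : D.Rel i z ρ) (hj : z.x ∈ D.V j) : ∃ ρ', D.Rel j z ρ' :=
  let ⟨_, _, _, a⟩ := D.trn i j z ρ _ e hj (im_ap _ _)
  ⟨_, a⟩

theorem rel_tr (e : D.Rel i z ρ) (hj : z.x ∈ D.V j) (e' : D.Rel j z ρ') :
    Eqv z.R (ap (D.t i j) ρ) ρ' :=
  let ⟨c, _, a, b⟩ := D.trn i j z ρ _ e hj (im_ap _ _)
  Eqv.trans ⟨c, a⟩ (rel_uniq D b e')

/-- every framed Betti object comes from a framed connection with a given pole -/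
theorem ex_ob (hτ : ∀ R ∈ τ.q, R ∈ τ.H) (hx : x ∈ D.V i) (p : BFr g d τ.q) :
    ∃ z : Ob A l τ, z.pt ∈ DR A l d τ (D.V i) ∧ z.1.x = x ∧ z.1.R = p.1.1 ∧ D.Rel i z.1 p.1.2 := by
  obtain ⟨⟨y, hy⟩, e⟩ := (D.Ψ τ hτ i).surjective (⟨x, hx⟩, p.pt τ)
  obtain ⟨z, rfl⟩ := pt_surj y
  obtain ⟨⟨ρ, a⟩, b⟩ := D.spec τ hτ i z hy
  obtain ⟨p0, e0, e1, e2⟩ := b ρ a
  rw [e] at e1 e2
  obtain ⟨h, m, k, e3, e4⟩ := pt_iff.1 e2.symm
  rw [e0] at e3 e4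
  have o := P275MM.isOb_act (q' := τ.q) z.2 k (e3 ▸ p.2.1)
  have e5 : Ob.pt (τ := τ) ⟨_, o⟩ = z.pt :=
    P275MM.pt_eq_ib.2 ⟨_, h, m, P275MM.IB.act z.1 h⟩
  exact ⟨⟨_, o⟩, e5 ▸ hy, e1.symm, e3.symm, D.act i _ ρ _ h a k e4⟩

theorem coc_one (hτ : ∀ R ∈ τ.q, R ∈ τ.H) (hi : x ∈ D.V i) (p : BFr g d τ.q) :
    Eqv p.1.1 (ap (D.t i i) p.1.2) p.1.2 := by
  obtain ⟨z, -, rfl, e, a⟩ := ex_ob D hτ hi p
  exact e ▸ rel_tr D a hi a

theorem coc_mul (hτ : ∀ R ∈ τ.q, R ∈ τ.H) (hi : x ∈ D.V i) (hj : x ∈ D.V j) (hk : x ∈ D.V k)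
    (p : BFr g d τ.q) : Eqv p.1.1 (ap (D.t j k) (ap (D.t i j) p.1.2)) (ap (D.t i k) p.1.2) := by
  obtain ⟨z, -, rfl, e, a⟩ := ex_ob D hτ hi p
  obtain ⟨ρ, b⟩ := rel_ex D a hj
  obtain ⟨ρ', c⟩ := rel_ex D a hk
  exact e ▸ (((rel_tr D a hj b).ap _).trans (rel_tr D b hk c)).trans (rel_tr D a hk c).symm

end Vale.Agent.P275B
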