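import Vale.Agent.P275B.Gt

/-!
# P275, Betti side: the two estimates
-/

open Set Function CategoryTheory
open Vale.Agent.P272.K Vale.Agent.P281Z.Hg Vale.Agent.P275MC Vale.Agent.P275FM Vale.Agent.P275AR
  Vale.Agent.P275XI Vale.Agent.P275TB
open Vale.Agent.P275RG (Alg Cp)
open P275S (H Hd K KG act)

noncomputable section

namespace Vale.Agent.P275B

variable (W : WF) {b d d' e D D' N : ℕ} {B : Mn b} {c : Cv B} {M : Vr d} {M' : Vr d'}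
  [CompactSpace B.X] (hc : ∀ i, IsPreconnected (c.V i)) {F : Fl c M D} {F' : Fl c M' D'}
  {X : Vr e} {f i k t} (hi : Hm0 F' F f i) (hf : ∀ j, IsProperMap (f j))
  (h1 : ∀ j, Alg M'.cp X.cp (k j)) (h2 : ∀ j, IsProperMap (k j)) (h3 : F'.Inv k t)
  (ht : Smo D' e t)
include hc hi hf h1 h2 h3

theorem est_gy (eD : D = D' + N)
    (g : Grd (wT (wt X.cp)) (wH W F') (2 * N) (P275S.pb (tm ht)).toLinearMap)
    {γ : K ℂ (tm hi.smo) ⟶ K ℂ (𝟙 (TopCat.of F.T.X))} (hγ : γ ∈ KG.deg ℂ _ _ (2 * N : ℕ)) {m : ℤ}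
    {a : H ℂ (TopCat.of X.X)} (ha : a ∈ WG (wT (wt X.cp)) m) :
    act γ (P275S.pb (tm ht) a) ∈ WG (wH W F) (m + 2 * N) :=
  have p := act_univ hi.smo (hi.proper isProperMap_id hf)
  grd_WG (grd_act W F' hc p (grd_gys W hi isProperMap_id hf p)
    (by rwa [show (2 * D - 2 * D' : ℤ) = (2 * N : ℕ) by omega])) (gr_wH W F') (gr_wH W F)
    (add_zero _).ge (grd_WG g (gr_wT (gr_wt X.cp)) (gr_wH W F') le_rfl ha)

theorem est_tr (eD : D' = e + N + 1)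
    (g : Grd (wH W F) (wH W F') (-(2 * N)) (P275S.pb (tm hi.smo)).toLinearMap)
    {ψ : K ℂ (tm ht) ⟶ K ℂ (𝟙 (TopCat.of X.X))} (hψ : ψ ∈ KG.deg ℂ _ _ (-(2 * N + 2))) {m : ℤ}
    {v : H ℂ (TopCat.of F.T.X)} (hv : v ∈ WG (wH W F) (m + 2 * N)) :
    act ψ (P275S.pb (tm hi.smo) v) ∈ WG (wT (wt X.cp)) m :=
  have p := act_univ ht (h3.proper h2)
  grd_WG (grd_act W F' hc p (grd_gysX W F' X h1 h2 h3 p)
    (by rwa [show (2 * e - 2 * D' : ℤ) = -(2 * N + 2) by omega])) (gr_wH W F')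
    (gr_wT (gr_wt X.cp)) (add_zero _).ge
    (grd_WG g (gr_wH W F) (gr_wH W F') (by omega) hv)

end Vale.Agent.P275B
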