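import Vale.Agent.P275B.Ins
import Vale.Agent.P275B.Gt2
import Vale.Agent.P275MM.Pbt
import Vale.Agent.P275LB.Loc
import Vale.Agent.P275WB.Pbx
import Vale.Agent.P275WB.Main
import Vale.Agent.P275GQ.Pi
import Vale.Agent.P275FL.Flat

/-!
# P275, Betti side: the weight estimates on the flat end
-/

set_option linter.unusedSectionVars false
set_option backward.isDefEq.respectTransparency false

open Set Function Topology CategoryTheory
open Vale.Agent.P275GC (At)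
open Vale.Agent.P275NA (Cy)
open Vale.Agent.P275MO Vale.Agent.P275Z Vale.Agent.P275RG Vale.Agent.P275BW Vale.Agent.P275OI
  Vale.Agent.P275MC Vale.Agent.P275FM Vale.Agent.P275XI Vale.Agent.P275TB Vale.Agent.P275CH
  Vale.Agent.P275AR
open Vale.Agent.P275XB (Ok cX)
open Vale.Agent.P275ST (dimR deg Rep)
open Vale.Agent.P275MM (Hy)
open P275S (H Hd pb K KG act)

noncomputable section

namespace Vale.Agent.P275B

theorem Hm.desc {b d d' D D' : ℕ} {B : Mn b} {c : Cv B} {M : Vr d} {M' : Vr d'} {F : Fl c M D}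
    {F' : Fl c M' D'} {f t} (h : Hm0 F' F (fun _ => f) t) (o : Surjective f) {Y : Type}
    {k₀ : c.ι → M.X → Y} {k} (hk : F'.Inv (fun i y => k₀ i (f y)) k) :
    ∃ k', F.Inv k₀ k' ∧ ∀ z, k' (t z) = k z := by
  obtain ⟨k', a⟩ := F.ex_inv (k₀ := k₀) fun i j ⟨x, hi, hj⟩ y => by
    obtain ⟨w, rfl⟩ := o y
    have e : F'.q (F'.ψ j (x, w)) = x := F'.qψ j (x, w) hj
    have e1 := hk j _ (e.symm ▸ hj)
    have e2 := h.φt j _ (e.symm ▸ hj)
    rw [F'.φψ j (x, w) hj] at e1 e2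
    change _ = k₀ j (f w) at e1
    change F.φ j _ = f w at e2
    rw [← e1, ← e2, ← F.φtr i j _ (((h.qt _).trans e).symm ▸ hi) (((h.qt _).trans e).symm ▸ hj),
      hk i _ (e.symm ▸ hi)]
    exact congrArg _ (h.φt i _ (e.symm ▸ hi))
  refine ⟨k', a, fun z => ?_⟩
  obtain ⟨i, hi⟩ := c.cov (F'.q z)
  rw [a i _ ((h.qt z).symm ▸ hi), hk i z hi]
  exact congrArg _ (h.φt i z hi)

variable {C : Type} [TopologicalSpace C] [T2Space C] [CompactSpace C] {A : At C} {l : Cy A ℂ}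
  {g n : ℕ} {d : ℤ} [Ok g n d] (W : WF) (D : RHD A l g n d)

/-- **XI** -/
def XII : Prop := ∀ (k a m : ℕ) (Y : BN g k d (le_refl (bor n)) a m) (μ : Fin n → ℤ), k ≤ nr n →
  m + k = 2 * dimR g n + 2 * nr n → ∑ b, μ b = 0 →
  ∀ h : Loc (prT (FZ D Y) (BFr.pt (tauZ n k))) (TT (fun i j => bap (D.t j i)) (TN μ)),
    MG (wH W (FZ D Y)) (-2) (P275S.th.c h.lb).1

/-- **GY** -/
def GYI : Prop := ∀ (j : Fin (nr n)) (a a' m : ℕ) (Y : BN g j d (le_refl (bor n)) a (m + 1))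
  (Y' : BN g (j + 1) d (le_refl (bor n)) a' m), m + 1 + j = 2 * dimR g n + 2 * nr n →
  Grd (wH W (FZ D Y)) (wH W (FZ D Y')) (-2)
    (pb (tm (FZ_hm D Y' Y (nk_anti (Nat.le_succ j))).smo)).toLinearMap

/-- the weight of the line of the flag -/
def μL {n : ℕ} (a : Fin n) : Fin n → ℤ := fun b => if b = a then n - 1 else -1

theorem sum_μL {n : ℕ} (a : Fin n) : ∑ b, μL a b = 0 := by
  have : ∀ b, μL a b = (if b = a then (n : ℤ) else 0) - 1 := fun b => by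
    rw [μL]; split_ifs <;> simp
  simp [this]

/-- **LBI** -/
def LBI [P275CC.Nc C] [Hy A l n] : Prop :=
  ∀ (a m : ℕ) (Y : BN g (nr n) d (le_refl (bor n)) a m) (b : Fin n)
    (h : Loc (prT (FZ D Y) (BFr.pt (tauZ n (nr n)))) (TT (fun i j => bap (D.t j i)) (TN (μL b)))),
    ∃ s : ℂ, pb (inc (sL A l (tauZ n (nr n)) 1)) (yE A l _ le_rfl b).1 = s • (P275S.th.c h.lb).1

variable (g n d) in
/-- the space of all nilpotent residues -/
def Z0 : BN g 0 d (le_refl (bor n)) (2 * dimR g n + 2 * nr n + (nr n + (n - 1)))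
    (2 * dimR g n + 2 * nr n) := bZ g d (Nat.zero_le _) rfl

variable (g n d) in
/-- the space of flags -/
def Z1 : BN g (nr n) d (le_refl (bor n)) (2 * dimR g n + nr n + (nr n + (n - 1)))
    (2 * dimR g n + nr n) := bZ g d le_rfl (by omega)

variable {W D}

theorem grd_e (gy : GYI W D) : ∀ (k a m : ℕ) (Y : BN g k d (le_refl (bor n)) a m), k ≤ nr n →
    m + k = 2 * dimR g n + 2 * nr n → Grd (wH W (FZ D (Z0 g n d))) (wH W (FZ D Y)) (-(2 * k))
      (pb (tm (FZ_hm D Y (Z0 g n d) (nk_anti (Nat.zero_le k))).smo)).toLinearMap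
  | 0, a, m, Y, _, e => by
    obtain rfl : m = 2 * dimR g n + 2 * nr n := e
    exact grd_iso W (FZ_hm D Y (Z0 g n d) le_rfl).hol (FZ_hm D (Z0 g n d) Y le_rfl)
      isProperMap_id (fun _ => (tyB_emb le_rfl le_rfl (Z0 g n d) Y).2.isProperMap)
      (fun z => Subtype.ext ((P275MM.ty_self _).trans (P275MM.ty_self _)))
      fun z => Subtype.ext ((P275MM.ty_self _).trans (P275MM.ty_self _))
  | k + 1, a, m, Y, hk, e => by
    have h1 := grd_e gy k _ (m + 1) (bZ g d (by omega) (by omega)) (by omega) (by omega)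
    refine grd_congr ((gy ⟨k, hk⟩ _ _ m _ Y (by simpa using by omega)).comp h1 (gr_wH W _))
      (by push_cast; ring) fun x => ?_
    refine Eq.trans (congrArg (fun f => pb f x) ?_) (P275S.pb_comp _ _ x).symm
    ext y
    exact Subtype.ext (P275MM.ty_ty (τ := tauZ n (k + 1)) (τ' := tauZ n k) (τ'' := tauZ n 0)
      le_rfl (nk_anti k.le_succ) le_rfl (nk_anti k.zero_le) y.1).symm

theorem grd_f [P275CC.Nc C] [Hy A l n] (hn : 2 ≤ n) (xi : XII W D) (lb : LBI D) :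
    Grd (wH W (FX D)) (wH W (FZ D (Z1 g n d))) (2 * nr n)
      (pb (tm (FX_hm D (Z1 g n d)).smo)).toLinearMap := by
  have p : IsProperMap (tyB (τ := tauZ n (nr n)) (τ' := tauX n) le_top nk_top.le :
      Bet g d _ → _) := fgt_proper (fun _ h => nk_top.le h) (fun _ => rfl) le_rfl
  have h := FX_hm D (Z1 g n d)
  have a := act_univ h.smo (h.proper isProperMap_id fun _ => p)
  refine P275MM.pbt (M := (FZ D (Z1 g n d)).T.X) (N := (FX D).T.X) hn (by omega) (i := inc (sL A l (tauZ n (nr n)) 1))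
    (j := inc (sL A l (tauX n) 1)) .subtypeVal .subtypeVal Subtype.range_coe Subtype.range_coe
    (fun _ => rfl) a (gr_wH W _) (gr_wH W _) (grd_gys W h isProperMap_id (fun _ => p) a)
    (fun b => ?_) fun x hx => mg_zero W _ D.conn hx
  have k := locT (FZ_lf D (Z1 g n d)) (P275LB.trN (c := cv D) D (fun i => i) fun _ _ _ h => h)
    (P275LB.locN le_rfl (sum_μL b))
  obtain ⟨s, e⟩ := lb _ _ _ b k
  exact e ▸ (xi _ _ _ _ _ le_rfl (by omega) (sum_μL b) k).smul s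

/-- the two estimates -/
structure Est {T T' X : TopCat.{0}} (e : T' ⟶ T) (π : T' ⟶ X) (N : ℕ)
    (WX : ℤ → Submodule ℂ (H ℂ X)) (WY : ℤ → Submodule ℂ (H ℂ T)) : Prop where
  gy : ∀ γ ∈ KG.deg ℂ (K ℂ e) (K ℂ (𝟙 _)) (2 * N : ℕ), ∀ k, ∀ a ∈ WX k,
    act γ (pb π a) ∈ WY (k + 2 * N)
  tr : ∀ ψ ∈ KG.deg ℂ (K ℂ π) (K ℂ (𝟙 _)) (-(2 * N + 2)), ∀ k, ∀ v ∈ WY (k + 2 * N),
    act ψ (pb e v) ∈ WX k

variable (W D) in
/-- the weight filtration on the flat end -/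
def WY (k : ℤ) : Submodule ℂ (H ℂ (TopCat.of (FZ D (Z0 g n d)).T.X)) :=
  WG (wH W (FZ D (Z0 g n d))) (4 * dimR g n + 4 * nr n - k)

theorem est [P275CC.Nc C] [Hy A l n] (hn : 2 ≤ n) (xi : XII W D) (gy : GYI W D) (lb : LBI D)
    (κ : Fin D.N → (vX g n d).X ≃ₜ (vXB g n d).X) (a1 : ∀ i, Alg (vX g n d).cp (vXB g n d).cp (κ i))
    (a2 : ∀ i, Alg (vXB g n d).cp (vX g n d).cp (κ i).symm)
    (π : (FZ D (Z1 g n d)).T.X → (vXB g n d).X)
    (i1 : (FZ D (Z1 g n d)).Inv (fun i y => κ i (tyB (τ := tauZ n (nr n)) (τ' := tauX n) le_top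
      nk_top.le y)) π) : ∃ s : P281Z.Hg.Smo (1 + (2 * dimR g n + nr n)) (2 * dimR g n) π,
    Est (tm (FZ_hm D (Z1 g n d) (Z0 g n d) (nk_anti (Nat.zero_le _))).smo) (tm s) (nr n)
      (fun k => WG (wT (wt (vXB g n d).cp)) (4 * dimR g n - k)) (WY W D) := by
  have hf := FX_hm D (Z1 g n d)
  have p : IsProperMap (tyB (τ := tauZ n (nr n)) (τ' := tauX n) le_top nk_top.le :
      Bet g d _ → _) := fgt_proper (fun _ h => nk_top.le h) (fun _ => rfl) le_rfl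
  obtain ⟨t, i2, e⟩ := hf.desc (fgt_onto (fun _ => rfl)) i1
  have a3 := fun i => (a1 i).comp (hf.alg i)
  have p3 := fun i => (κ i).isProperMap.comp p
  have s1 := smo_of_hol (i1.hol fun i => (a3 i).hol)
  have s2 := smo_of_hol (i2.hol fun i => (a1 i).hol)
  have he := FZ_hm D (Z1 g n d) (Z0 g n d) (nk_anti (Nat.zero_le _))
  have pe := fun _ : Fin D.N =>
    (tyB_emb le_rfl (nk_anti (Nat.zero_le _)) (Z1 g n d) (Z0 g n d)).2.isProperMap
  have g1 : Grd (wT (wt (vXB g n d).cp)) (wH W (FZ D (Z1 g n d))) (2 * nr n)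
      (pb (tm s1)).toLinearMap := by
    refine grd_congr ((grd_f hn xi lb).comp (P275WB.pbx W _ _ κ a1 a2 i2 s2) (gr_wH W _))
      (zero_add _) fun x => ?_
    refine Eq.trans (congrArg (fun f => pb f x) ?_) (P275S.pb_comp _ _ x).symm
    ext y
    exact (e y).symm
  have : CompactSpace (crv A).X := ‹CompactSpace C›
  have g2 := grd_e gy _ _ _ (Z1 g n d) le_rfl (by omega)
  exact ⟨s1, fun γ hγ k a ha => WG_anti (by omega) (est_gy W (c := cv D) D.conn he pe a3 p3 i1 s1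
      (N := nr n) (by omega) g1 hγ ha),
    fun ψ hψ k v hv => est_tr W (c := cv D) D.conn he pe a3 p3 i1 s1 (N := nr n) (by omega) g2
      (ψ := ψ) hψ (WG_anti (by omega) hv)⟩

/-- **TATE** -/
def TATE (W : WF) {S : Sit} (B : S.Brg) [Hy B.T.A B.T.l S.n] (ph : PH B.T.A B.T.l B.T.std.two) :
    Prop := ∀ w w' : H ℂ (MT B.T.A B.T.l (tauY B.T.std.two)),
  pb (itr (φ1 ph) S.n) (pb (jT _ _ _) w) = pb (jT _ _ _) w' → ∀ m : ℤ,
  pb (inc _) (pb (i0 _ _ _) w) ∈ WG (wH W (FZ B.R.toRHD (Z0 S.g S.n (deg S.D)))) m →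
  pb (inc _) (pb (i0 _ _ _) (w' - w)) ∈ WG (wH W (FZ B.R.toRHD (Z0 S.g S.n (deg S.D)))) (m + 2)

theorem wh_eq (Y : P275ST.Cpt g n d) :
    WH Y.hom = fun k => WG (wT (wt (vXB g n d).cp)) (4 * dimR g n - k) :=
  funext fun k => Submodule.ext fun a => by
    rw [P275WB.WH_cpt, P275WB.mem_WT, mem_WG (T := (vXB g n d).toMn) (gr_wt _),
      show (4 * dimR g n - k : ℤ) = (2 * dimR g n + 2 * dimR g n : ℕ) - k by omega]
    rfl

theorem wli {S : Sit} (B : S.Brg) [Hy B.T.A B.T.l S.n] (ph : PH B.T.A B.T.l B.T.std.two) {π}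
    (hπ : π ≫ sec B 1 = inc _ ≫ pP S.n B.T.A B.T.l S.p) (Y : P275ST.Cpt S.g S.n (deg S.D))
    (xi : XII W B.R.toRHD) (gy : GYI W B.R.toRHD) (lb : LBI B.R.toRHD) (ta : TATE W B ph) :
    WLI B ph π (WH Y.hom) (WY W B.R.toRHD) := by
  obtain ⟨κ, h1, h2⟩ := pi_spec B hπ
  obtain ⟨s, h0⟩ := est B.T.std.two xi gy lb (fun i => (κ i).trans (bx _ _ _))
    (fun i => alg_bx.comp (h1 i).1) (fun i => (h1 i).2.comp alg_bx') π
    (flS_inv _ _ _ _ _ fun i z a q b _ r => (h2 i z a (P275NB.toR (inF nk_top.le q)) b r).trans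
      (congrArg (fun y => bx _ _ _ (κ i y)) (ptX_toR _)))
  have h : Est (eL S.n B.T.A B.T.l 1) π (nr S.n) (WH Y.hom) (WY W B.R.toRHD) := by
    rw [wh_eq Y]
    exact h0
  exact ⟨fun k => WG_anti (by omega), h.gy, h.tr,
    fun w w' h k hk => WG_anti (by omega) (ta w w' h _ hk)⟩

end Vale.Agent.P275B
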