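import Vale.Agent.P275TB.Wh
import Vale.Agent.P275MC.Gk

/-!
# P275, Betti side: the weight filtration of a transposed grading and the two estimates
-/

open scoped Manifold ContDiff Topology
open Set Function CategoryTheory
open Vale.Agent.P272.K Vale.Agent.P281Z.Hg Vale.Agent.P275MC Vale.Agent.P275FM Vale.Agent.P275AR
  Vale.Agent.P275XI Vale.Agent.P275TB
open Vale.Agent.P275RG (Alg Cp)
open P275S (H Hd K KG act lc)

noncomputable section

namespace Vale.Agent.P275B

section lin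

variable {V V' : Type*} [AddCommGroup V] [Module ℂ V] [AddCommGroup V'] [Module ℂ V']
  {u : ℕ → Module.End ℂ V} {u' : ℕ → Module.End ℂ V'} {s m m' : ℤ} {φ : V →ₗ[ℂ] V'}

/-- the elements of degree at least `m` -/
def WG (u : ℕ → Module.End ℂ V) (m : ℤ) : Submodule ℂ V where
  carrier := {a | ∀ q : ℕ, (q : ℤ) < m → u q a = 0}
  add_mem' := fun ha hb q h => by rw [map_add, ha q h, hb q h, add_zero]
  zero_mem' := fun q _ => map_zero _
  smul_mem' := fun c a ha q h => by rw [map_smul, ha q h, smul_zero]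

theorem WG_anti (h : m ≤ m') : WG u m' ≤ WG u m := fun _ ha q hq => ha q (hq.trans_le h)

theorem grd_WG (g : Grd u u' s φ) (h : IsGr u) (h' : IsGr u') (e : m' ≤ m + s) {a : V}
    (ha : a ∈ WG u m) : φ a ∈ WG u' m' := fun q hq => by
  by_cases l : (q : ℤ) < s
  · exact g.small h l a
  · rw [g.comm h h' (q := (q - s).toNat) (by omega), ha _ (by omega), map_zero]

end lin

theorem mem_WG {D : ℕ} {T : Mn D} {w : ℕ → Module.End ℂ T.H} (h : IsGr w) {m : ℤ}
    {a : H ℂ (TopCat.of T.X)} : a ∈ WG (wT w) m ↔ ∀ x ∈ flt w m.toNat, pd D T.X a x = 0 := by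
  refine ⟨fun ha x hx => ?_, fun ha q hq => H_ext (d := D) fun x => ?_⟩
  · rw [← h.sum_flt hx, map_sum]
    exact Finset.sum_eq_zero fun q hq => by
      rw [← pd_wT, ha q (by have := Finset.mem_range.1 hq; omega), map_zero, LinearMap.zero_apply]
  · rw [pd_wT, ha _ (h.w_flt (by omega) x), map_zero, LinearMap.zero_apply]

variable (W : WF) {b d d' e D D' : ℕ} {B : Mn b} {c : Cv B} {M : Vr d} {M' : Vr d'}

/-- the Gysin map of a proper map to a fixed variety is graded -/
theorem grd_gysX [CompactSpace B.X] (F : Fl c M D) (X : Vr e) {f t}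
    (h1 : ∀ i, Alg M.cp X.cp (f i)) (h2 : ∀ i, IsProperMap (f i)) (h3 : F.Inv f t)
    {ht : Smo D e t} (a : Act univ univ (pb ht)) : Grd (wH W F) (wT (wt X.cp)) 0 (gys a) := by
  refine grd_adj (s := 0) ?_ (pd_gys a)
  have e : ∀ u, wd (pb ht u) (pb (smo_of_hol F.hq) (one b B.X)) = pb ht u := fun u => by
    rw [pb_one, wd_one]
  rw [a.map_congr (act_rwd ht (by rw [pb_one, dd_one]) fun u hu => (e u).symm ▸ a.mem u hu)
    fun u _ => (e u).symm]
  exact W.const F X h1 h2 h3 ht _ _ dd_one ⟨univ, isCompact_univ, subset_univ _, fun _ h =>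
    absurd trivial h⟩ _

/-- every map of the degree of the Gysin map is graded -/
theorem grd_act (F : Fl c M D) (hc : ∀ i, IsPreconnected (c.V i)) {T : Mn D'} {t : F.T.X → T.X}
    {ht : Smo D D' t} (a : Act univ univ (pb ht)) {u : ℕ → Module.End ℂ (H ℂ (TopCat.of T.X))}
    (g : Grd (wH W F) u 0 (gys a)) {φ : K ℂ (tm ht) ⟶ K ℂ (𝟙 (TopCat.of T.X))}
    (hφ : φ ∈ KG.deg ℂ _ _ (2 * D' - 2 * D)) : Grd (wH W F) u 0 (act φ) := by
  obtain ⟨lam, h⟩ := act_eq_gys a hφ
  refine grd_congr (g.comp (mg_zero W F hc (P275S.lc_mem lam)) (gr_wH W F)) rfl fun x => ?_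
  rw [h, (ce_even D (P275S.lc_mem lam) Even.zero x).eq]
  rfl

end Vale.Agent.P275B
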