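import Vale.Agent.P275B.Gyi
import Vale.Agent.P275MM.Tat

/-!
# P275, Betti side: the weights
-/

namespace Vale.Agent.P275B

/-- **WOU** -/
theorem wou : P275OI.WOU := wou_ta fun W S B _ ph => P275MM.tate_ok W S B ph

end Vale.Agent.P275B
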