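import Vale.Agent.P275B.Coc
import Vale.Agent.P275CH.Lb
import Vale.Agent.P275BW.Map

/-!
# P275, Betti side: line bundles on the total space of a flat bundle
-/

set_option linter.unusedSectionVars false

open Set Function Topology Matrix
open Vale.Agent.P275Z Vale.Agent.P275BW Vale.Agent.P275CH
open Vale.Agent.P275MO (Ty)
open Vale.Agent.P281Z.Hm (Mx)

noncomputable section

namespace Vale.Agent.P275B

section tot

variable {b d D : ℕ} {B : Mn b} {c : Cv B} {M : Vr d} {E : Type} [TopologicalSpace E]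

variable (c E) in
/-- the presentation of the total space -/
abbrev ET : Type := Σ i : c.ι, c.V i × E

/-- the point of the total space -/
def prT (F : Fl c M D) (π : E → M.X) (w : ET c E) : F.T.X := F.ψ w.1 (w.2.1, π w.2.2)

/-- the relation on the presentation of the total space -/
def TT (a : c.ι → c.ι → E → E) (T : E → E → ℂ → Prop) (w w' : ET c E) (s : ℂ) : Prop :=
  (w.2.1 : B.X) = w'.2.1 ∧ T w.2.2 (a w.1 w'.1 w'.2.2) s

/-- the transitions lift to the presentation -/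
structure Lf (F : Fl c M D) (π : E → M.X) (a : c.ι → c.ι → E → E) : Prop where
  ct : ∀ i j, Continuous (a i j)
  tr : ∀ i j, (c.V i ∩ c.V j).Nonempty → ∀ z, F.tr i j (π z) = π (a i j z)

/-- the lifts respect the character -/
structure Tr (a : c.ι → c.ι → E → E) (T : E → E → ℂ → Prop) : Prop where
  inv : ∀ i j z z' s, T z z' s → T (a i j z) (a i j z') s
  mul : ∀ z z' z'' s s', T z z' s → T z' z'' s' → T z z'' (s * s')
  coc : ∀ i j k, (c.V i ∩ c.V j ∩ c.V k).Nonempty → ∀ z, T (a i j (a j k z)) (a i k z) 1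

variable {F : Fl c M D} {π : E → M.X} {a : c.ι → c.ι → E → E} {T : E → E → ℂ → Prop}

omit [TopologicalSpace E] in
theorem q_prT (w : ET c E) : F.q (prT F π w) = w.2.1 := F.qψ _ _ w.2.1.2

omit [TopologicalSpace E] in
theorem φ_prT (w : ET c E) : F.φ w.1 (prT F π w) = π w.2.2 := F.φψ _ _ w.2.1.2

theorem Fl.ext' {z z' : F.T.X} {i : c.ι} (hi : F.q z ∈ c.V i) (h : F.q z = F.q z')
    (h' : F.φ i z = F.φ i z') : z = z' := F.tv.ext' hi h h'

theorem Lf.φ (h : Lf F π a) (w : ET c E) {i : c.ι} (hi : (w.2.1 : B.X) ∈ c.V i) :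
    F.φ i (prT F π w) = π (a i w.1 w.2.2) := by
  rw [F.φtr i w.1 _ ((q_prT w).symm ▸ hi) ((q_prT w).symm ▸ w.2.1.2), φ_prT,
    h.tr _ _ ⟨_, hi, w.2.1.2⟩]

theorem Lf.eq_iff (h : Lf F π a) {w w' : ET c E} : prT F π w = prT F π w' ↔
    (w.2.1 : B.X) = w'.2.1 ∧ π w.2.2 = π (a w.1 w'.1 w'.2.2) := by
  refine ⟨fun e => ?_, fun ⟨e, e'⟩ => Fl.ext' (i := w.1) ((q_prT w).symm ▸ w.2.1.2)
    ((q_prT w).trans (e.trans (q_prT w').symm))
    ((φ_prT w).trans (e'.trans (h.φ w' (e ▸ w.2.1.2)).symm))⟩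
  have e1 := (q_prT w).symm.trans ((congrArg F.q e).trans (q_prT w'))
  exact ⟨e1, by rw [← φ_prT (F := F) (π := π) w, e, h.φ w' (e1 ▸ w.2.1.2)]⟩

theorem oq_prT (h : IsOpenQuotientMap π) : IsOpenQuotientMap (prT F π) := by
  refine ⟨fun y => ?_, continuous_sigma fun i => continuous_iff_continuousAt.2 fun w =>
    (F.tv.cs i (w.1, π w.2) w.1.2).comp (f := fun w : c.V i × E => ((w.1 : B.X), π w.2))
      (continuous_subtype_val.prodMap h.continuous).continuousAt, isOpenMap_sigma.2 fun i => ?_⟩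
  · obtain ⟨i, hi⟩ := c.cov (F.q y)
    obtain ⟨z, e⟩ := h.surjective (F.φ i y)
    exact ⟨⟨i, ⟨_, hi⟩, z⟩, by rw [prT, e]; exact F.ψφ i y hi⟩
  · intro O hO
    have := (F.tv.Φ i).symm.isOpen_image_of_subset_source
      (((c.opn i).isOpenMap_subtype_val.prodMap h.isOpenMap) O hO)
      (by rintro _ ⟨w, -, rfl⟩; exact w.1.2)
    rwa [image_image] at this

/-- **semi-invariants on the total space** -/
theorem locT (h : Lf F π a) (k : Tr a T) (l : Loc π T) : Loc (prT F π) (TT a T) := by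
  refine ⟨oq_prT l.oq, fun w w' e => ?_, fun w => ?_⟩
  · obtain ⟨e1, e2⟩ := h.eq_iff.1 e
    obtain ⟨s, hs⟩ := l.fib _ _ e2
    exact ⟨s, e1, hs⟩
  · obtain ⟨O, β, m, s⟩ := l.ex (a w.1 w.1 w.2.2)
    have h1 : Continuous fun v : ET c E => a w.1 v.1 v.2.2 :=
      continuous_sigma fun j => (h.ct w.1 j).comp continuous_snd
    have h2 : Continuous fun v : ET c E => (v.2.1 : B.X) :=
      continuous_sigma fun j => continuous_subtype_val.comp continuous_fst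
    refine ⟨{v | (v.2.1 : B.X) ∈ c.V w.1 ∧ a w.1 v.1 v.2.2 ∈ O}, fun v => β (a w.1 v.1 v.2.2),
      ⟨w.2.1.2, m⟩, ((c.opn _).preimage h2).inter (s.op.preimage h1),
      s.ct.comp h1.continuousOn fun _ e => e.2, fun _ e => s.nz _ e.2, fun u v r e m => ?_⟩
    have := s.law _ _ _ (k.mul _ _ _ _ _ (k.inv w.1 u.1 _ _ _ e.2)
      (k.coc w.1 u.1 v.1 ⟨_, ⟨m.1, e.1 ▸ u.2.1.2⟩, v.2.1.2⟩ _)) m.2
    exact ⟨⟨e.1 ▸ m.1, this.1⟩, mul_one r ▸ this.2⟩

/-- maps of presentations -/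
def mT {E' : Type} (G : E' → E) (w : ET c E') : ET c E := ⟨w.1, w.2.1, G w.2.2⟩

theorem cont_mT {E' : Type} [TopologicalSpace E'] {G : E' → E} (h : Continuous G) :
    Continuous (mT (c := c) G) :=
  continuous_sigma fun _ => continuous_sigmaMk.comp (continuous_id.prodMap h)

omit [TopologicalSpace E] in
theorem Hm.prT {d' D' : ℕ} {M' : Vr d'} {F' : Fl c M' D'} {f t} (h : Hm0 F' F (fun _ => f) t)
    {E' : Type} {π' : E' → M'.X} {G : E' → E} (e : ∀ z, f (π' z) = π (G z)) (w : ET c E') :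
    t (prT F' π' w) = prT F π (mT G w) := by
  have h1 := (h.qt (P275B.prT F' π' w)).trans (q_prT w)
  refine Fl.ext' (i := w.1) (h1.symm ▸ w.2.1.2) (h1.trans (q_prT (mT G w)).symm) ?_
  exact (h.φt w.1 _ ((q_prT w).symm ▸ w.2.1.2)).trans
    ((congrArg f (φ_prT w)).trans ((e _).trans (φ_prT (mT G w)).symm))

end tot

variable {n g k : ℕ} {d : ℤ} {J : Type} {q : Submodule ℂ (Mx (Fin n))}

/-- `p'` is the framed object `p` in the frame `h` -/
def Mv (h : Mx (Fin n)) (p p' : BFr g d q) : Prop :=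
  h ∈ bor n ∧ h.det ≠ 0 ∧ p'.1.1 = h⁻¹ * p.1.1 * h ∧ Cj h p.1.2 p'.1.2

/-- the character `μ` on framed objects -/
def TN (μ : Fin n → ℤ) (p' p : BFr g d q) (s : ℂ) : Prop := ∃ h, Mv h p p' ∧ s = ch μ h

/-- the character `(μ, ε)` on framed objects with fibre coordinates -/
def TB (m : J → Fin n → ℤ) (e : J → ℤ) {S : Set (KB n J → ℂ)} (μ : Fin n → ℤ) (ε : ℤ)
    (z' z : EB g k d S) (s : ℂ) : Prop :=
  ∃ (h : Mx (Fin n)) (t : ℂ), Mv h z.1.1 z'.1.1 ∧ t ≠ 0 ∧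
    (∀ j, z'.1.2 j = t ^ e j * (ch (m j) h * z.1.2 j)) ∧ s = t ^ ε * ch μ h

/-- the action on framed objects with fibre coordinates -/
def apB {S : Set (KB n J → ℂ)} (t : Aut g n) (z : EB g k d S) : EB g k d S :=
  ⟨(bap t z.1.1, z.1.2), z.2⟩

/-- **FRM**: local frames -/
def FRM (g n : ℕ) (d : ℤ) : Prop := ∀ (k : ℕ) (p : BFr g d (nk n k)),
  ∃ (O : Set (Tup g n)) (b : Tup g n → Mx (Fin n)), IsOpen O ∧ p.1.2 ∈ O ∧ ContinuousOn b O ∧
    (∀ ρ ∈ O, b ρ ∈ bor n ∧ (b ρ).det ≠ 0) ∧ ∀ ρ ∈ O, ∀ h ∈ bor n, h.det ≠ 0 → ∀ ρ', Cj h ρ ρ' →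
      ρ' ∈ O ∧ ∃ s : ℂ, s ≠ 0 ∧ b ρ' = s • (b ρ * h)

end Vale.Agent.P275B
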