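import Vale.Agent.P275B.Wou
import Vale.Agent.P275IG.Gy
import Vale.Agent.P275IX.Xi
import Vale.Agent.P275XI.Lpb
import Vale.Agent.P275LB.Ins

/-!
# P275, Betti side: the classes of characters and the chain of ideals
-/

set_option backward.isDefEq.respectTransparency false

open Vale.Agent.P275GC (At)
open Vale.Agent.P275NA (Cy)
open Vale.Agent.P275MO Vale.Agent.P275Z Vale.Agent.P275BW Vale.Agent.P275OI
open Vale.Agent.P275XB (Ok)
open Vale.Agent.P275LB (locP locW)
open Vale.Agent.P275MM (Hy)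

namespace Vale.Agent.P275B

variable {C : Type} [TopologicalSpace C] [T2Space C] [CompactSpace C] {A : At C} {l : Cy A ℂ}
  {g n : ℕ} {d : ℤ} (W : WF) (D : RHD A l g n d)

theorem fc (k : ℕ) : P275IX.Fc k d (c := cv D) fun i j => D.t j i := ⟨cv_one D, cv_mul D⟩

variable [Ok g n d]

theorem xii : XII W D := fun k _ _ Y _ hk e s h =>
  P275IX.xi (fc D k) (FZ_lf D Y) W D.conn s h hk e

theorem gyi : GYI W D := fun j _ _ m Y Y' e => by
  have s := sum_mP (sum_rtw j) 0
  have z : ∑ a, (0 : Fin n → ℤ) a = 0 := by simp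
  let V := bW g d j (D := m + 1 + 1) (by omega)
  let X := bP g d (k := j + 1) (D := m + 1) s j.2 (by simp; omega)
  obtain ⟨FV, lV⟩ := (fc D j).ex_fl V
  obtain ⟨FX, lX⟩ := (fc D (j + 1)).ex_fl X
  exact P275IG.gyI W j D.conn rfl (FZ_lf D Y) (FZ_lf D Y') lV lX
    (locT lV (fc D j).trB (locW V z)) (locT lX (fc D _).trB (locP X s z))
    (fun _ k => P275XI.pfib_neg (finSuccEquiv 1).symm s lX k (fc D _).trB _)
    (fun ρ k => P275IX.pbe (fc D _) (FZ_lf D Y') W D.conn (sum_rtw j) j.2 (by omega) lX k)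
    (FZ_hm D Y' Y _)

theorem wou_ta (ta : ∀ (W : WF) (S : Sit) (B : S.Brg) [Hy B.T.A B.T.l S.n]
    (ph : PH B.T.A B.T.l B.T.std.two), UNI ph → TATE W B ph) : WOU :=
  wou_of (fun W _ _ => xii W _) (fun W _ _ => gyi W _) ta

end Vale.Agent.P275B
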