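import Vale.Agent.P275B.Lt
import Vale.Agent.P275BW.Pb

/-!
# P275, Betti side: the flat bundles over the curve
-/

set_option linter.unusedSectionVars false

open Set Function Topology Matrix
open Vale.Agent.P275GC (At)
open Vale.Agent.P275NA (Cy)
open Vale.Agent.P281Z.Hm (Mx)
open Vale.Agent.P275MO Vale.Agent.P275Z Vale.Agent.P275RG Vale.Agent.P275BW Vale.Agent.P275MK

noncomputable section

namespace Vale.Agent.P275B

variable {C : Type} [TopologicalSpace C] [T2Space C] [CompactSpace C] {A : At C} {l : Cy A ℂ}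
  {g n m m' E E' : ℕ} {d : ℤ} (D : RHD A l g n d) {τ τ' : Ty n}

/-- the cover of the curve -/
def cv : Cv (crv A) := ⟨Fin D.N, D.V, D.opn, D.cov⟩

/-- the flat objects -/
abbrev Sc (A : At C) (l : Cy A ℂ) (τ : Ty n) : Type := {y : Mod A l τ // y.lam = 1}

/-- the transitions of `F` are given by `a` -/
def Trs {M : Vr m} (F : Fl (cv D) M E) (a : Aut g n → M.X → M.X) : Prop :=
  ∀ i j : Fin D.N, (D.V i ∩ D.V j).Nonempty → ∀ y, F.tr i j y = a (D.t j i) y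

/-- `k` is the monodromy in the charts -/
def Mo {Y : Type} (e : BFr g d τ.q → Y) (k : Fin D.N → Sc A l τ → Y) : Prop :=
  ∀ i (z : Ob A l τ) h (p : BFr g d τ.q), z.1.x ∈ D.V i → p.1.1 = z.1.R → D.Rel i z.1 p.1.2 →
    k i ⟨z.pt, h⟩ = e p

variable (hτ : ∀ R ∈ τ.q, R ∈ τ.H) (hg : ∀ R ∈ τ.q, Gen d R)

include hτ hg in
theorem ex_mo (i : Fin D.N) (y : Sc A l τ) (hi : y.1.x ∈ D.V i) :
    ∃ (z : Ob A l τ) (h : z.pt.lam = 1) (p : BFr g d τ.q), y = ⟨z.pt, h⟩ ∧ z.1.x ∈ D.V i ∧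
      p.1.1 = z.1.R ∧ D.Rel i z.1 p.1.2 := by
  obtain ⟨y, h⟩ := y
  obtain ⟨z, rfl⟩ := pt_surj y
  obtain ⟨⟨ρ, a⟩, b⟩ := D.spec τ hτ i z ⟨h, hi, hg _ z.pt.rep.2.2⟩
  obtain ⟨p, e, -⟩ := b ρ a
  exact ⟨z, h, p, rfl, hi, by rw [e], by rwa [e]⟩

/-- the chart -/
def ψS (i : Fin D.N) : {y : Sc A l τ // y.1.x ∈ D.V i} ≃ₜ D.V i × Bet g d τ :=
  Homeomorph.trans
    { toFun := fun y => ⟨y.1.1, y.1.2, y.2, hg _ y.1.1.rep.2.2⟩
      invFun := fun y => ⟨⟨y.1, y.2.1⟩, y.2.2.1⟩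
      left_inv := fun _ => rfl
      right_inv := fun _ => rfl
      continuous_toFun := (continuous_subtype_val.comp continuous_subtype_val).subtype_mk _
      continuous_invFun := (continuous_subtype_val.subtype_mk _).subtype_mk _ } (D.Ψ τ hτ i)

theorem ψS_pt {i : Fin D.N} (z : Ob A l τ) (h hi) {p : BFr g d τ.q} (e : p.1.1 = z.1.R)
    (r : D.Rel i z.1 p.1.2) : ((ψS D hτ hg i ⟨⟨z.pt, h⟩, hi⟩).1 : C) = z.1.x ∧
      (ψS D hτ hg i ⟨⟨z.pt, h⟩, hi⟩).2 = p.pt τ := by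
  obtain ⟨p', e1, e2, e3⟩ := (D.spec τ hτ i z ⟨h, hi, hg _ z.pt.rep.2.2⟩).2 _ r
  obtain rfl : p = p' := Subtype.ext ((Prod.ext e rfl : p.1 = (z.1.R, p.1.2)).trans e1.symm)
  exact ⟨e2, e3⟩

variable {M : Vr m} (e : Bet g d τ ≃ₜ M.X)

/-- the trivialisations of the space of flat objects -/
def tvS : Tv D.V (Sc A l τ) M.X :=
  Tv.ofHomeo D.opn D.cov (p := fun y => y.1.x) (P275MB.cont_x.comp continuous_subtype_val)
    (fun i => (ψS D hτ hg i).trans ((Homeomorph.refl _).prodCongr e))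
    (fun i y => by
      obtain ⟨z, h, p, e0, hi, e1, r⟩ := ex_mo D hτ hg i y.1 y.2
      obtain ⟨y, hy⟩ := y
      subst e0
      exact (ψS_pt D hτ hg z h hy e1 r).1)
    (fun i j y => e (map τ (D.t j i) (e.symm y))) fun i j y hi hj => by
      obtain ⟨z, h, p, rfl, -, e1, r⟩ := ex_mo D hτ hg j y hj
      obtain ⟨ρ, r'⟩ := rel_ex D r hi
      obtain ⟨p', e2, -⟩ := (D.spec τ hτ i z ⟨h, hi, hg _ z.pt.rep.2.2⟩).2 _ r'
      have e3 : p'.1.1 = z.1.R := by rw [e2]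
      have e4 : D.Rel i z.1 p'.1.2 := by rwa [e2]
      change e (ψS D hτ hg i _).2 = e (map τ _ (e.symm (e (ψS D hτ hg j _).2)))
      rw [e.symm_apply_apply, (ψS_pt D hτ hg z h hi e3 e4).2, (ψS_pt D hτ hg z h hj e1 r).2, map_pt]
      exact congrArg e (pt_eqv hτ (p := bap _ p) (e3.trans e1.symm)
        (e1.symm ▸ rel_tr D r hi e4)).symm

variable (alg : ∀ t, Alg M.cp M.cp fun y => e (map τ t (e.symm y)))

/-- **the flat bundle of the flat objects** -/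
def flS : Fl (cv D) M (1 + m) := Fl.ofTv (c := cv D) (tvS D hτ hg e) fun _ _ _ => alg _

theorem flS_q (y : Sc A l τ) : (flS D hτ hg e alg).q y = y.1.x := rfl

theorem flS_tr : Trs D (flS D hτ hg e alg) fun t y => e (map τ t (e.symm y)) := fun _ _ _ _ => rfl

theorem flS_φ : Mo D (fun p => e (p.pt τ)) (flS D hτ hg e alg).φ :=
  fun i z h _ hi e1 r => by
    have : (tvS D hτ hg e).q i ⟨z.pt, h⟩ = _ :=
      Tv.ofHomeo_q D.opn D.cov (p := fun y : Sc A l τ => y.1.x) (z := ⟨z.pt, h⟩) hi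
    exact this.trans (congrArg e (ψS_pt D hτ hg z h hi e1 r).2)

/-- maps which are read on the monodromy -/
theorem flS_inv {Y : Type} {k₀ : Fin D.N → M.X → Y} {k : Sc A l τ → Y}
    (h : ∀ i (z : Ob A l τ) a (p : BFr g d τ.q), z.1.x ∈ D.V i → p.1.1 = z.1.R →
      D.Rel i z.1 p.1.2 → k ⟨z.pt, a⟩ = k₀ i (e (p.pt τ))) : (flS D hτ hg e alg).Inv k₀ k :=
  fun i y hi => by
    obtain ⟨z, a, p, rfl, hi', e1, r⟩ := ex_mo D hτ hg i y hi
    rw [flS_φ D hτ hg e alg i z a p hi' e1 r]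
    exact h i z a p hi' e1 r

/-- the change of type is a map of flat bundles -/
theorem flS_hm {hτ' : ∀ R ∈ τ'.q, R ∈ τ'.H} {hg' : ∀ R ∈ τ'.q, Gen d R} {M' : Vr m'}
    {e' : Bet g d τ' ≃ₜ M'.X} {alg'} (hH : τ.H ≤ τ'.H) (hq : τ.q ≤ τ'.q) {f : M.X → M'.X}
    (hf : Alg M.cp M'.cp f) (h : ∀ p, f (e p) = e' (tyB hH hq p)) :
    Hm0 (flS D hτ hg e alg) (flS D hτ' hg' e' alg') (fun _ => f)
      fun y => ⟨P275MB.ty hH hq y.1, (P275MM.ty_lam hH hq y.1).trans y.2⟩ := by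
  refine ⟨P281Z.holM_id, fun _ _ h => h, fun _ => hf, fun y => P275MM.ty_x hH hq y.1,
    fun i y hi => ?_⟩
  obtain ⟨z, a, p, rfl, hi', e1, r⟩ := ex_mo D hτ hg i y hi
  rw [flS_φ D hτ hg e alg i z a p hi' e1 r, h]
  exact flS_φ D hτ' hg' e' alg' i ⟨z.1, P275MM.isOb_le z.2 hq⟩ a (inF hq p) hi' e1 r

theorem cont_bap {q : Submodule ℂ (Mx (Fin n))} (t : Aut g n) :
    Continuous (bap t : BFr g d q → _) :=
  ((continuous_fst.comp continuous_subtype_val).prodMk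
    ((cont_ap t).comp (continuous_snd.comp continuous_subtype_val))).subtype_mk _

theorem flS_lf : Lf (flS D hτ hg e alg) (fun p => e (p.pt τ)) fun i j => bap (D.t j i) :=
  ⟨fun _ _ => cont_bap _, fun _ _ _ _ => congrArg (fun y => e (map τ _ y)) (e.symm_apply_apply _)⟩

omit hτ in
theorem cv_one {k : ℕ} (i : Fin D.N) (h : ((cv D).V i).Nonempty) (p : BFr g d (nk n k)) :
    Eqv p.1.1 (ap (D.t i i) p.1.2) p.1.2 :=
  coc_one D (τ := tauZ n k) (fun _ => nk_bor) h.some_mem p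

omit hτ in
theorem cv_mul {k : ℕ} (i j s : Fin D.N) (h : ((cv D).V i ∩ (cv D).V j ∩ (cv D).V s).Nonempty)
    (p : BFr g d (nk n k)) :
    Eqv p.1.1 (ap (D.t j i) (ap (D.t s j) p.1.2)) (ap (D.t s i) p.1.2) :=
  coc_mul D (τ := tauZ n k) (fun _ => nk_bor) h.some_mem.2 h.some_mem.1.2 h.some_mem.1.1 p

variable [P275XB.Ok g n d] {k k' : ℕ}

/-- flags and nilpotent residues in the `k`-th ideal -/
def FZ {a : ℕ} (Y : BN g k d (le_refl (bor n)) a m) : Fl (cv D) Y.vr (1 + m) :=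
  flS D (τ := tauZ n k) (fun _ => nk_bor) (fun _ => gen_nk (g := g)) (.refl _) (alg_map Y)

theorem FZ_lf {a : ℕ} (Y : BN g k d (le_refl (bor n)) a m) :
    Lf (FZ D Y) (BFr.pt (tauZ n k)) fun i j => bap (D.t j i) := flS_lf D _ _ _ _

theorem gen_X (g : ℕ) [o : P275XB.Ok g n d] (R : Mx (Fin n)) (h : R ∈ (tauX n).q) : Gen d R :=
  (Submodule.mem_bot ℂ).1 h ▸ P275NB.gen_zero o.cop

/-- no pole -/
def FX : Fl (cv D) (vX g n d) (1 + 2 * P275ST.dimR g n) :=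
  flS D (τ := tauX n) (fun _ _ => trivial) (gen_X g) (.refl _) fun t =>
    alg_autX t fun p => ⟨bap t p, im_ap _ _, rfl⟩

theorem FZ_hm {a a' : ℕ} (Y : BN g k d (le_refl (bor n)) a m) (Y' : BN g k' d (le_refl (bor n)) a' m')
    (h : nk n k ≤ nk n k') : Hm0 (FZ D Y) (FZ D Y') (fun _ => tyB (τ := tauZ n k) le_rfl h)
      fun y => ⟨P275MB.ty (τ := tauZ n k) le_rfl h y.1, (P275MM.ty_lam _ _ y.1).trans y.2⟩ :=
  flS_hm D (τ := tauZ n k) (τ' := tauZ n k') (M := Y.vr) (M' := Y'.vr) (e' := .refl _) _ _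
    (.refl _) _ le_rfl h (alg_tyB Y Y' _ _) fun _ => rfl

theorem FX_hm {a : ℕ} (Y : BN g (nr n) d (le_refl (bor n)) a m) :
    Hm0 (FZ D Y) (FX D) (fun _ => tyB (τ := tauZ n (nr n)) (τ' := tauX n) le_top nk_top.le)
      fun y => ⟨P275MB.ty (τ := tauZ n (nr n)) le_top nk_top.le y.1,
        (P275MM.ty_lam _ _ y.1).trans y.2⟩ :=
  flS_hm D (τ := tauZ n (nr n)) (τ' := tauX n) (M := Y.vr) (M' := vX g n d) (e' := .refl _) _ _
    (.refl _) _ le_top nk_top.le (alg_fgt Y _ _) fun _ => rfl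

end Vale.Agent.P275B
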