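import Vale.Agent.P275B.Woi
import Vale.Agent.P275LB.Id
import Vale.Agent.P275OI.Pk

/-!
# P275, Betti side: the weights from the three remaining inputs
-/

set_option backward.isDefEq.respectTransparency false

open Vale.Agent.P275MO Vale.Agent.P275Z Vale.Agent.P275OI Vale.Agent.P275FM
open Vale.Agent.P275MM (Hy)

namespace Vale.Agent.P275B

theorem wou_of (xi : ∀ (W : WF) (S : Sit) (B : S.Brg), XII W B.R.toRHD)
    (gy : ∀ (W : WF) (S : Sit) (B : S.Brg), GYI W B.R.toRHD)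
    (ta : ∀ (W : WF) (S : Sit) (B : S.Brg) [Hy B.T.A B.T.l S.n] (ph : PH B.T.A B.T.l B.T.std.two),
      UNI ph → TATE W B ph) : WOU := fun S B _ ph _ e u Y =>
  P275FL.flat.elim fun W => ⟨_, wli B ph e Y (xi W S B) (gy W S B)
    (fun _ _ Y b h => ⟨-1, (P275LB.lbi _ Y b h).trans (congrArg _ (cq_eq _))⟩) (ta W S B ph u)⟩

end Vale.Agent.P275B
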